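import Vale.Agent.P153.R2.DRV.Stmt
import Vale.Agent.P153.R2.R1.PL

/-!
# P153, block STEP: the image of the canonical curve in the half-plane is a simple curve

`inv_cont`: the inverse of a uniformizer is continuous up to the boundary; `CanH` (parts of `S_can`);
`CanH.crv`: `L2.Crv (et ψ δ p S h) (nu p S h)`, `CanH.et_eq`: `ψ (et t) = pl t`; `dist_run`:
consecutive midpoints are at distance at most `δ / 2`.
-/

set_option autoImplicit false

open Set Metric Filter Topology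
open scoped Real

namespace Vale.Agent.P153.R2.STEP

open Vale.Agent.P153.R2.Final Vale.Agent.P153.R2.UNIQ Vale.Agent.P153.R2.DRV
open Vale.Agent.P153.R2.INTF (St run fa)

/-! ### The inverse of a uniformizer up to the boundary -/

theorem exists_far {ψ : ℂ → ℂ} {b : ℂ}
    (hinf : Tendsto ψ (Bornology.cobounded ℂ ⊓ 𝓟 {z | 0 ≤ z.im}) (𝓝 b)) {d : ℝ} (hd : 0 < d) :
    ∃ M₁ : ℝ, ∀ z : ℂ, 0 ≤ z.im → M₁ < ‖z‖ → dist (ψ z) b < d := by
  have h1 := Metric.tendsto_nhds.1 hinf d hd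
  rw [eventually_inf_principal] at h1
  have h2 := (Metric.hasBasis_cobounded_compl_closedBall (0 : ℂ)).eventually_iff.1 h1
  obtain ⟨M₁, -, hM⟩ := h2
  refine ⟨M₁, fun z hz hzn => hM ?_ hz⟩
  rw [mem_compl_iff, mem_closedBall, dist_zero_right]
  exact not_le.2 hzn

theorem inv_eq {ψ : ℂ → ℂ} (hi : InjOn ψ {z | 0 ≤ z.im}) {z : ℂ} (hz : 0 ≤ z.im) :
    Function.invFunOn ψ {z | 0 ≤ z.im} (ψ z) = z := by
  have hm : ψ z ∈ ψ '' {z : ℂ | 0 ≤ z.im} := ⟨z, hz, rfl⟩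
  exact hi (Function.invFunOn_mem hm) hz (Function.invFunOn_eq hm)

/-- The inverse of a uniformizer is continuous up to the boundary. -/
theorem inv_cont {ψ : ℂ → ℂ} {b : ℂ} (hc : ContinuousOn ψ {z | 0 ≤ z.im})
    (hi : InjOn ψ {z | 0 ≤ z.im})
    (hinf : Tendsto ψ (Bornology.cobounded ℂ ⊓ 𝓟 {z | 0 ≤ z.im}) (𝓝 b))
    (hne : ∀ z : ℂ, 0 ≤ z.im → ψ z ≠ b) :
    ContinuousOn (Function.invFunOn ψ {z | 0 ≤ z.im}) (ψ '' {z | 0 ≤ z.im}) := by
  rintro _ ⟨z, hz, rfl⟩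
  rw [Metric.continuousWithinAt_iff]
  intro ε hε
  have hd : 0 < dist (ψ z) b := dist_pos.2 (hne z hz)
  obtain ⟨R, hR⟩ := exists_far hinf (half_pos hd)
  have hK : IsCompact ({z : ℂ | 0 ≤ z.im} ∩ closedBall (0 : ℂ) R ∩ {z' : ℂ | ε ≤ dist z' z}) :=
    ((isCompact_closedBall _ _).inter_left
      (isClosed_le continuous_const Complex.continuous_im)).inter_right
      (isClosed_le continuous_const (continuous_id.dist continuous_const))
  have hm : ∃ m > 0, ∀ z' ∈ {z : ℂ | 0 ≤ z.im} ∩ closedBall (0 : ℂ) R ∩ {z' : ℂ | ε ≤ dist z' z},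
      m ≤ dist (ψ z') (ψ z) := by
    rcases ({z : ℂ | 0 ≤ z.im} ∩ closedBall (0 : ℂ) R ∩
      {z' : ℂ | ε ≤ dist z' z}).eq_empty_or_nonempty with h0 | h0
    · refine ⟨1, one_pos, fun z' hz' => ?_⟩
      rw [h0] at hz'
      exact absurd hz' (notMem_empty _)
    · obtain ⟨z₀, hz₀, hmin⟩ := hK.exists_isMinOn h0 (f := fun z' => dist (ψ z') (ψ z))
        (continuous_dist.comp_continuousOn
          ((hc.mono (inter_subset_left.trans inter_subset_left)).prodMk continuousOn_const))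
      refine ⟨dist (ψ z₀) (ψ z), dist_pos.2 fun he => ?_, fun z' hz' => isMinOn_iff.1 hmin z' hz'⟩
      have h1 := hi hz₀.1.1 hz he
      have h2 : ε ≤ dist z₀ z := hz₀.2
      rw [h1, dist_self] at h2
      linarith
  obtain ⟨m, hm0, hm⟩ := hm
  refine ⟨min m (dist (ψ z) b / 2), lt_min hm0 (half_pos hd), ?_⟩
  rintro _ ⟨z', hz', rfl⟩ hlt
  rw [inv_eq hi hz', inv_eq hi hz]
  by_contra hcon
  rw [not_lt] at hcon
  rcases le_or_gt ‖z'‖ R with h1 | h1
  · have h2 := hm z' ⟨⟨hz', by rwa [mem_closedBall, dist_zero_right]⟩, hcon⟩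
    exact absurd (hlt.trans_le (min_le_left _ _)) (not_lt.2 h2)
  · have h2 := hR z' hz' h1
    have h3 := hlt.trans_le (min_le_right _ _)
    have h4 := dist_triangle (ψ z) (ψ z') b
    have h5 := dist_comm (ψ z) (ψ z')
    linarith

/-! ### The polygonal curve -/

variable {n : ℕ} {p : ZMod n → ℤ × ℤ} {k : ℕ} {S : Finset Final.Tri} {δ : ℝ} {h : Hg} {ψ : ℂ → ℂ}

theorem pl_eq (δ : ℝ) (ρ : ℕ → St) (i : ℕ) {t : ℝ} (h1 : (i : ℝ) ≤ t) (h2 : t ≤ i + 1) :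
    pl δ ρ t = ((1 - (t - i) : ℝ) : ℂ) * mid δ (ρ i).1 (ρ i).2 +
      ((t - i : ℝ) : ℂ) * mid δ (ρ (i + 1)).1 (ρ (i + 1)).2 := by
  have h0 : 0 ≤ t := (Nat.cast_nonneg i).trans h1
  rcases h2.lt_or_eq with h3 | h3
  · have hf : ⌊t⌋₊ = i := by
      rw [Nat.floor_eq_iff h0]
      exact ⟨h1, h3⟩
    rw [pl, hf]
  · have hf : ⌊t⌋₊ = i + 1 := by
      rw [h3, ← Nat.cast_succ, Nat.floor_natCast]
    have h4 : t - ((i + 1 : ℕ) : ℝ) = 0 := by rw [h3]; push_cast; ring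
    have h5 : t - (i : ℝ) = 1 := by rw [h3]; ring
    rw [pl, hf, h4, h5]
    simp

theorem pl_nat (δ : ℝ) (ρ : ℕ → St) (i : ℕ) : pl δ ρ i = mid δ (ρ i).1 (ρ i).2 := by
  rw [pl_eq δ ρ i le_rfl (by linarith), sub_self]
  simp

theorem pl_continuousOn (δ : ℝ) (ρ : ℕ → St) : ContinuousOn (pl δ ρ) (Ici 0) := by
  have h1 : EqOn (pl δ ρ) (R1.pl (fun i : ℤ => mid δ (ρ i.toNat).1 (ρ i.toNat).2)) (Ici 0) := by
    intro t ht
    have ht' : (0 : ℝ) ≤ t := ht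
    have h2 : ((⌊t⌋₊ : ℤ) : ℝ) ≤ t := by
      push_cast
      exact Nat.floor_le ht'
    have h3 : t ≤ ((⌊t⌋₊ : ℤ) : ℝ) + 1 := by
      push_cast
      exact (Nat.lt_floor_add_one t).le
    rw [R1.pl_eq _ (⌊t⌋₊ : ℤ) h2 h3, pl]
    have h4 : ((⌊t⌋₊ : ℤ) + 1).toNat = ⌊t⌋₊ + 1 := by omega
    rw [h4, Int.toNat_natCast]
    push_cast
    simp only [Complex.real_smul]
    push_cast
    ring
  exact (R1.continuous_pl _).continuousOn.congr h1

/-- Consecutive midpoints. -/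
theorem dist_pl (δ : ℝ) (ρ : ℕ → St) (i : ℕ) {t : ℝ} (h1 : (i : ℝ) ≤ t) (h2 : t ≤ i + 1) {ε : ℝ}
    (hε : dist (mid δ (ρ i).1 (ρ i).2) (mid δ (ρ (i + 1)).1 (ρ (i + 1)).2) ≤ ε) :
    dist (pl δ ρ t) (pl δ ρ i) ≤ ε := by
  rw [pl_eq δ ρ i h1 h2, pl_nat]
  have e : ((1 - (t - i) : ℝ) : ℂ) * mid δ (ρ i).1 (ρ i).2 +
      ((t - i : ℝ) : ℂ) * mid δ (ρ (i + 1)).1 (ρ (i + 1)).2 - mid δ (ρ i).1 (ρ i).2 =
      ((t - i : ℝ) : ℂ) * (mid δ (ρ (i + 1)).1 (ρ (i + 1)).2 - mid δ (ρ i).1 (ρ i).2) := by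
    push_cast
    ring
  rw [dist_eq_norm, e, norm_mul, Complex.norm_real, Real.norm_eq_abs, abs_of_nonneg (by linarith)]
  rw [dist_comm, dist_eq_norm] at hε
  have h3 : t - i ≤ 1 := by linarith
  have h4 := norm_nonneg (mid δ (ρ (i + 1)).1 (ρ (i + 1)).2 - mid δ (ρ i).1 (ρ i).2)
  have h5 : 0 ≤ t - i := by linarith
  nlinarith

/-- The facts about the interface of `h` used here (parts of `S_can`). -/
structure CanH {n : ℕ} (p : ZMod n → ℤ × ℤ) (k : ℕ) (S : Finset Final.Tri) (δ : ℝ) (h : Hg) :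
    Prop where
  pos : 0 < nu p S h
  zero : pl δ (ru p S h) 0 = mid δ (p (-1)) (p 0)
  last : pl δ (ru p S h) (nu p S h) = bptD p k δ
  inj : InjOn (pl δ (ru p S h)) (Icc 0 (nu p S h : ℝ))
  mem : ∀ t ∈ Ioo 0 (nu p S h : ℝ), pl δ (ru p S h) t ∈ toC '' interior (region δ S)

theorem CanH.mem_image (hC : CanH p k S δ h) (hU : IsUnifD p k S δ ψ) {t : ℝ}
    (ht : t ∈ Ico 0 (nu p S h : ℝ)) :
    ∃ z : ℂ, 0 ≤ z.im ∧ ψ z = pl δ (ru p S h) t ∧ (0 < t → 0 < z.im) ∧ (t = 0 → z = 0) := by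
  rcases ht.1.eq_or_lt with h0 | h0
  · refine ⟨0, le_rfl, ?_, fun h => absurd h0 h.ne, fun _ => rfl⟩
    rw [← h0, hC.zero]
    exact hU.zero
  · have h1 := hC.mem t ⟨h0, ht.2⟩
    rw [← hU.image] at h1
    obtain ⟨z, hz, he⟩ := h1
    have hz' : 0 < z.im := hz
    exact ⟨z, hz'.le, he, fun _ => hz', fun h => absurd h h0.ne'⟩

theorem CanH.et_eq (hC : CanH p k S δ h) (hU : IsUnifD p k S δ ψ) {t : ℝ}
    (ht : t ∈ Ico 0 (nu p S h : ℝ)) :
    ψ (et ψ δ p S h t) = pl δ (ru p S h) t ∧ (0 < t → 0 < (et ψ δ p S h t).im) ∧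
      (t = 0 → et ψ δ p S h t = 0) := by
  obtain ⟨z, hz, he, h1, h2⟩ := hC.mem_image hU ht
  have : et ψ δ p S h t = z := by
    rw [et, ← he]
    exact inv_eq hU.injOn hz
  rw [this]
  exact ⟨he, h1, h2⟩

/-- The curve in the half-plane. -/
theorem CanH.crv (hC : CanH p k S δ h) (hU : IsUnifD p k S δ ψ) :
    L2.Crv (et ψ δ p S h) (nu p S h) := by
  refine ⟨by exact_mod_cast hC.pos, ?_, ?_, ?_, ?_⟩
  · refine (inv_cont hU.cont hU.injOn hU.inf hU.ne).comp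
      ((pl_continuousOn δ (ru p S h)).mono fun t ht => ht.1) ?_
    intro t ht
    obtain ⟨z, hz, he, -, -⟩ := hC.mem_image hU ht
    exact ⟨z, hz, he⟩
  · intro t ht t' ht' he
    refine hC.inj ⟨ht.1, ht.2.le⟩ ⟨ht'.1, ht'.2.le⟩ ?_
    rw [← (hC.et_eq hU ht).1, ← (hC.et_eq hU ht').1, he]
  · rw [(hC.et_eq hU ⟨le_rfl, by exact_mod_cast hC.pos⟩).2.2 rfl, Complex.zero_im]
  · intro t ht
    exact (hC.et_eq hU ⟨ht.1.le, ht.2⟩).2.1 ht.1

/-! ### The states -/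

theorem norm_toC_pt (v : ℤ × ℤ) : ‖toC (pt v)‖ = Final.len v := by
  rw [Complex.norm_def, Complex.normSq_apply, Final.len]
  congr 1
  simp only [toC, pt]
  have h3 : √3 * √3 = (3 : ℝ) := Real.mul_self_sqrt (by norm_num)
  have e : ((v.1 : ℝ) + v.2 / 2) * (v.1 + v.2 / 2) + √3 / 2 * v.2 * (√3 / 2 * v.2) =
      (v.1 : ℝ) ^ 2 + v.1 * v.2 + (v.2 : ℝ) ^ 2 / 4 + (√3 * √3) * (v.2 : ℝ) ^ 2 / 4 := by ring
  rw [e, h3]
  ring

theorem mid_sub (δ : ℝ) (a b c : ℤ × ℤ) :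
    mid δ a b - mid δ c b = ((δ / 2 : ℝ) : ℂ) * toC (pt (a - c)) := by
  apply Complex.ext
  · simp only [mid, toC, pt, Complex.sub_re, Complex.re_ofReal_mul, Prod.smul_mk, Prod.mk_add_mk,
      smul_eq_mul, Prod.fst_sub, Prod.snd_sub]
    push_cast
    ring
  · simp only [mid, toC, pt, Complex.sub_im, Complex.im_ofReal_mul, Prod.smul_mk, Prod.mk_add_mk,
      smul_eq_mul, Prod.fst_sub, Prod.snd_sub]
    push_cast
    ring

theorem mid_comm (δ : ℝ) (a b : ℤ × ℤ) : mid δ a b = mid δ b a := by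
  unfold mid
  rw [add_comm]

theorem dist_mid {δ : ℝ} (hδ : 0 < δ) {a b c : ℤ × ℤ} (hac : Final.len (a - c) = 1) :
    dist (mid δ a b) (mid δ c b) = δ / 2 := by
  rw [dist_eq_norm, mid_sub, norm_mul, Complex.norm_real, norm_toC_pt, hac, mul_one,
    Real.norm_of_nonneg (by positivity)]

/-- lengths in the triangle ahead -/
theorem len_ah {s : St} (hs : Final.len (s.2 - s.1) = 1) :
    Final.len (INTF.ah s - s.1) = 1 ∧ Final.len (INTF.ah s - s.2) = 1 := by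
  obtain ⟨⟨a, b⟩, ⟨c, d⟩⟩ := s
  unfold Final.len at *
  simp only [INTF.ah, INTF.rm, Prod.mk_sub_mk, Prod.mk_add_mk] at *
  push_cast at *
  constructor
  · rw [← hs]
    congr 1
    ring
  · rw [← hs]
    congr 1
    ring

theorem run_adj {h : Hg} {S : Finset Final.Tri} {s : St} (hs : Final.len (s.2 - s.1) = 1) (j : ℕ) :
    Final.len ((run h S s j).2 - (run h S s j).1) = 1 := by
  induction j with
  | zero => exact hs
  | succ j ih =>
    rw [run]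
    obtain ⟨h1, h2⟩ := len_ah ih
    split
    · unfold INTF.nx
      split
      · have h3 : ∀ v w : ℤ × ℤ, Final.len (v - w) = Final.len (w - v) := by
          intro v w
          unfold Final.len
          congr 1
          simp only [Prod.fst_sub, Prod.snd_sub]
          push_cast
          ring
        rw [h3]
        exact h2
      · exact h1
    · exact ih

theorem dist_run {h : Hg} {S : Finset Final.Tri} {s : St} (hs : Final.len (s.2 - s.1) = 1)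
    {δ : ℝ} (hδ : 0 < δ) (j : ℕ) :
    dist (mid δ (run h S s j).1 (run h S s j).2)
      (mid δ (run h S s (j + 1)).1 (run h S s (j + 1)).2) ≤ δ / 2 := by
  obtain ⟨h1, h2⟩ := len_ah (run_adj (h := h) (S := S) hs j)
  rw [run]
  split
  · unfold INTF.nx
    split
    · simp only
      rw [dist_comm, dist_mid hδ h1]
    · simp only
      rw [dist_comm, mid_comm, mid_comm δ (run h S s j).1, dist_mid hδ h2]
  · rw [dist_self]
    positivity

theorem st_adj (hp : IsPolygon p) : Final.len ((st p S).2 - (st p S).1) = 1 := by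
  have h1 : Final.len (p 0 - p (-1)) = 1 := by
    have := hp.2.2 (-1)
    rw [neg_add_cancel] at this
    exact this
  unfold st
  split
  · have h3 : Final.len (p (-1) - p 0) = Final.len (p 0 - p (-1)) := by
      unfold Final.len
      congr 1
      simp only [Prod.fst_sub, Prod.snd_sub]
      push_cast
      ring
    rw [h3]
    exact h1
  · exact h1

end Vale.Agent.P153.R2.STEP
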