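import Vale.Agent.P153.R2.STEP.Main
import Vale.Agent.P153.R2.STEP.Can
import Vale.Agent.P153.R2.R1.Out2

/-!
# P153, block STEP: the input `S_step` of DRV
-/

set_option autoImplicit false

open Set Metric Filter Topology
open scoped Real

namespace Vale.Agent.P153.R2.STEP

open Vale.Agent.P153.R2.Final Vale.Agent.P153.R2.UNIQ Vale.Agent.P153.R2.DRV
open Vale.Agent.P153.R2.INTF (St run fa)

/-! ### The end point -/

theorem tendsto_bptD {Φ : (ℝ × ℝ) ≃ₜ (ℝ × ℝ)} {δ : ℕ → ℝ} {N k : ℕ → ℕ}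
    {p : ∀ n, ZMod (N n) → ℤ × ℤ} {S : ℕ → Finset Final.Tri} (h : Approx Φ δ N k p S) :
    Tendsto (fun n => bptD (p n) (k n) (δ n)) atTop (𝓝 (bpt Φ)) := by
  have h1 := R1.tendsto_half h (fun n => (k n : ℤ)) π (fun n σ _ h2 => by exact_mod_cast h2)
  have h2 : (fun n => bptD (p n) (k n) (δ n)) =
      fun n => R1.PF (p n) (δ n) (((k n : ℤ) : ℝ) - 1 / 2) := by
    funext n
    rw [bptD, R1.midB]
    push_cast
    rfl
  rw [h2]
  exact h1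

/-! ### The statement of DRV -/

/-- The steps of the `n`-th interface before the exit are at most `ε`, and the last step is not
reached before the exit. -/
def StepBy (ψ : ℂ → ℂ) (δ : ℝ) {n : ℕ} (p : ZMod n → ℤ × ℤ) (k : ℕ) (S : Finset Final.Tri)
    (T R ε : ℝ) : Prop :=
  ∀ h ∈ Cs p k S, ∀ j : ℕ, j < nu p S h →
    (∀ i : ℕ, i ≤ j → cp ψ δ p S h i ≤ T ∧ |wd ψ δ p S h i| ≤ R) →
    j + 1 < nu p S h ∧ cp ψ δ p S h (j + 1) - cp ψ δ p S h j ≤ ε ∧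
    ∀ t ∈ Icc (j : ℝ) (j + 1), |wd ψ δ p S h t - wd ψ δ p S h j| ≤ ε

/-- The facts about all interfaces. -/
def CanCs : Prop := ∀ (n k : ℕ) (p : ZMod n → ℤ × ℤ) (S : Finset Final.Tri) (δ : ℝ), 0 < δ →
  0 < k → k < n → IsPolygon p → Encloses p S → ∀ h ∈ Cs p k S, CanH p k S δ h

theorem stepBy (hcan : CanCs) {Φ : (ℝ × ℝ) ≃ₜ (ℝ × ℝ)} {ψ : ℂ → ℂ} {δ : ℕ → ℝ} {N k : ℕ → ℕ}
    {p : ∀ n, ZMod (N n) → ℤ × ℤ} {S : ℕ → Finset Final.Tri} {ψn : ℕ → ℂ → ℂ}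
    (hS : Setg Φ ψ δ N k p S ψn) (T R : ℝ) {ε : ℝ} (hε : 0 < ε) :
    ∀ᶠ n in atTop, StepBy (ψn n) (δ n) (p n) (k n) (S n) T R ε := by
  have hsub : {z : ℂ | 0 < z.im} ⊆ {z : ℂ | 0 ≤ z.im} := fun z hz => le_of_lt (show 0 < z.im from hz)
  obtain ⟨δ₀, hδ₀, hst⟩ := steps_seq (b := bpt Φ) hS.unif.2.2.2.1
    (R1.i_uinj Φ ψ hS.unif).2 hS.unif.2.2.2.2.2 (fun n => (hS.unifD n).diff)
    (fun n => (hS.unifD n).injOn.mono hsub) hS.conv T R hε
  have hδ : ∀ᶠ n in atTop, δ n < δ₀ := hS.appr.2.1.eventually (gt_mem_nhds hδ₀)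
  have hb : ∀ᶠ n in atTop, dist (bptD (p n) (k n) (δ n)) (bpt Φ) < δ₀ / 2 :=
    (Metric.tendsto_nhds.1 (tendsto_bptD hS.appr)) _ (half_pos hδ₀)
  filter_upwards [hst, hδ, hb] with n hn hδn hbn
  intro h hh j hj hbef
  obtain ⟨hδ0, hk0, hkN, hpoly, henc⟩ := hS.appr.1 n
  have hC := hcan (N n) (k n) (p n) (S n) (δ n) hδ0 hk0 hkN hpoly henc h hh
  have hU := hS.unifD n
  have hcrv := hC.crv hU
  obtain ⟨m, hm⟩ : ∃ m, nu (p n) (S n) h = m + 1 := ⟨nu (p n) (S n) h - 1, by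
    have := hC.pos
    omega⟩
  obtain ⟨L, hL⟩ : ∃ L : ℝ, L = (nu (p n) (S n) h : ℝ) := ⟨_, rfl⟩
  have hLm : L = m + 1 := by rw [hL, hm]; push_cast; ring
  have hT₁ : L - 1 / 2 ∈ Ioo 0 L := by
    have : (0 : ℝ) ≤ m := Nat.cast_nonneg m
    constructor <;> linarith
  rw [← hL] at hcrv
  obtain ⟨hWc, hsg⟩ := hcrv.sgen_local hT₁
  obtain ⟨η, hη⟩ : ∃ η, η = et (ψn n) (δ n) (p n) (S n) h := ⟨_, rfl⟩
  have h0L : (0 : ℝ) ∈ Ico 0 L := ⟨le_rfl, by linarith [hT₁.2, hT₁.1]⟩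
  have het : ∀ t ∈ Ico 0 L, ψn n (et (ψn n) (δ n) (p n) (S n) h t) =
      pl (δ n) (ru (p n) (S n) h) t := fun t ht => by
    rw [hL] at ht
    exact (hC.et_eq hU ht).1
  have het0 : et (ψn n) (δ n) (p n) (S n) h 0 = 0 :=
    (hC.et_eq hU ⟨le_rfl, by rw [← hL]; exact h0L.2⟩).2.2 rfl
  have hW0 : L2.Crv.drvT (et (ψn n) (δ n) (p n) (S n) h) L (L - 1 / 2) 0 = 0 := by
    have := hsg.start
    rw [het0] at this
    exact_mod_cast this.symm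
  have hmid : ∀ i : ℕ, dist (mid (δ n) (ru (p n) (S n) h i).1 (ru (p n) (S n) h i).2)
      (mid (δ n) (ru (p n) (S n) h (i + 1)).1 (ru (p n) (S n) h (i + 1)).2) ≤ δ n / 2 :=
    fun i => dist_run (st_adj hpoly) hδ0 i
  have hWcp : ∀ t, 0 ≤ t → t ≤ L - 1 / 2 →
      L2.Crv.drvT (et (ψn n) (δ n) (p n) (S n) h) L (L - 1 / 2) (cp (ψn n) (δ n) (p n) (S n) h t) =
        wd (ψn n) (δ n) (p n) (S n) h t := by
    intro t h0 h1
    have htI : t ∈ Ico 0 L := ⟨h0, h1.trans_lt hT₁.2⟩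
    unfold cp wd
    rw [L2.Crv.drvT_eq (hcrv.cap_nonneg htI)
      (hcrv.strictMono.monotoneOn htI ⟨hT₁.1.le, hT₁.2⟩ h1), hcrv.drv_cc htI]
  have key := hn _ _ _ _ m (fun i => (i : ℝ)) hWc hW0 hsg (by simp) (fun i _ => by simp)
    (by linarith) ?_ ?_ j (by omega) ?_
  · obtain ⟨h1, h2, h3⟩ := key
    have hj1 : (j : ℝ) + 1 ≤ m := by exact_mod_cast h1
    refine ⟨by omega, ?_, ?_⟩
    · simp only [Nat.cast_add, Nat.cast_one] at h2
      exact h2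
    · intro t ht
      have h0t : 0 ≤ t := (Nat.cast_nonneg j).trans ht.1
      have htL : t ≤ L - 1 / 2 := by linarith [ht.2]
      have h4 := h3 (cp (ψn n) (δ n) (p n) (S n) h t) ?_
      · rw [hWcp t h0t htL] at h4
        have h5 := hWcp j (Nat.cast_nonneg j) (by linarith)
        unfold cp at h5
        rwa [h5] at h4
      · simp only [Nat.cast_add, Nat.cast_one]
        have htI : t ∈ Ico 0 L := ⟨h0t, by linarith⟩
        constructor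
        · exact hcrv.strictMono.monotoneOn ⟨Nat.cast_nonneg j, by linarith⟩ htI ht.1
        · exact hcrv.strictMono.monotoneOn htI ⟨by positivity, by linarith⟩ ht.2
  · intro i hi r hr
    have hi' : (i : ℝ) + 1 ≤ m := by exact_mod_cast hi
    simp only [Nat.cast_add, Nat.cast_one] at hr
    have hi0 : (0 : ℝ) ≤ i := Nat.cast_nonneg i
    rw [het r ⟨hi0.trans hr.1, by linarith [hr.2]⟩, het i ⟨hi0, by linarith⟩]
    refine (dist_pl (δ n) (ru (p n) (S n) h) i hr.1 hr.2 (hmid i)).trans_lt ?_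
    linarith
  · have hm0 : (0 : ℝ) ≤ m := Nat.cast_nonneg m
    rw [het m ⟨hm0, by linarith⟩]
    have h1 : dist (pl (δ n) (ru (p n) (S n) h) m) (bptD (p n) (k n) (δ n)) ≤ δ n / 2 := by
      rw [← hC.last, hm, pl_nat, pl_nat]
      exact hmid m
    have h2 := dist_triangle (pl (δ n) (ru (p n) (S n) h) m) (bptD (p n) (k n) (δ n)) (bpt Φ)
    linarith
  · intro i hi
    have hi1 : (i : ℝ) ≤ L - 1 / 2 := by
      have : i ≤ m := by omega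
      have : (i : ℝ) ≤ m := by exact_mod_cast this
      linarith
    obtain ⟨h1, h2⟩ := hbef i hi
    refine ⟨h1, ?_⟩
    have h3 := hWcp i (Nat.cast_nonneg i) hi1
    unfold cp at h3
    rw [h3]
    exact h2

/-- **The input of DRV**, with the additional fact that the last step is not reached before the
exit. -/
theorem s_step' (hcan : CanCs) (Φ : (ℝ × ℝ) ≃ₜ (ℝ × ℝ)) (ψ : ℂ → ℂ) (δ : ℕ → ℝ) (N k : ℕ → ℕ)
    (p : ∀ n, ZMod (N n) → ℤ × ℤ) (S : ℕ → Finset Final.Tri) (ψn : ℕ → ℂ → ℂ)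
    (hS : Setg Φ ψ δ N k p S ψn) (T R : ℝ) : ∃ e : ℕ → ℝ, Tendsto e atTop (𝓝 0) ∧
      ∀ᶠ n in atTop, StepBy (ψn n) (δ n) (p n) (k n) (S n) T R (e n) := by
  have hmono : ∀ n ε ε', ε ≤ ε' → StepBy (ψn n) (δ n) (p n) (k n) (S n) T R ε →
      StepBy (ψn n) (δ n) (p n) (k n) (S n) T R ε' := by
    intro n ε ε' hle h g hg j hj hb
    obtain ⟨h1, h2, h3⟩ := h g hg j hj hb
    exact ⟨h1, h2.trans hle, fun t ht => (h3 t ht).trans hle⟩
  refine ⟨fun n => sInf {ε | 0 ≤ ε ∧ StepBy (ψn n) (δ n) (p n) (k n) (S n) T R ε}, ?_, ?_⟩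
  · rw [Metric.tendsto_nhds]
    intro ε hε
    filter_upwards [stepBy hcan hS T R (half_pos hε)] with n hn
    have h1 : sInf {ε | 0 ≤ ε ∧ StepBy (ψn n) (δ n) (p n) (k n) (S n) T R ε} ≤ ε / 2 :=
      csInf_le ⟨0, fun x hx => hx.1⟩ ⟨by positivity, hn⟩
    have h2 : 0 ≤ sInf {ε | 0 ≤ ε ∧ StepBy (ψn n) (δ n) (p n) (k n) (S n) T R ε} :=
      le_csInf ⟨ε / 2, by positivity, hn⟩ fun x hx => hx.1
    rw [Real.dist_eq, sub_zero, abs_of_nonneg h2]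
    linarith
  · filter_upwards [stepBy hcan hS T R one_pos] with n hn
    intro h hh j hj hb
    have hne : {ε | 0 ≤ ε ∧ StepBy (ψn n) (δ n) (p n) (k n) (S n) T R ε}.Nonempty :=
      ⟨1, zero_le_one, hn⟩
    exact ⟨(hn h hh j hj hb).1, le_csInf hne fun ε hε => (hε.2 h hh j hj hb).2.1,
      fun t ht => le_csInf hne fun ε hε => (hε.2 h hh j hj hb).2.2 t ht⟩

theorem s_step (hcan : CanCs) : S_step := by
  intro Φ ψ δ N k p S ψn hS T R
  obtain ⟨e, he, h⟩ := s_step' hcan Φ ψ δ N k p S ψn hS T R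
  refine ⟨e, he, ?_⟩
  filter_upwards [h] with n hn
  intro g hg j hj hb
  obtain ⟨-, h2, h3⟩ := hn g hg j (by omega) hb
  exact ⟨h2, h3⟩

end Vale.Agent.P153.R2.STEP
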