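import Vale.Agent.P153.R2.STEP.Main
import Vale.Agent.P153.R2.M1.Sys

/-!
# P153, block STEP: the field `small` of `M1.Sys.Ok`
-/

open Set Metric Filter Topology Vale.Agent.P153.M1

namespace Vale.Agent.P153.R2.STEP

section Gen

variable {Ω : ℕ → Type*} [mΩ : ∀ n, MeasurableSpace (Ω n)]

/-- the steps of the `n`-th system before the exit from `[0, T] × [-R, R]` are at most `ε` -/
def SmallBy (S : Sys Ω) (T R : ℝ) (n : ℕ) (ε : ℝ) : Prop :=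
  ∀ ω k, S.Bef T R n ω (k + 1) → S.τ n (k + 1) ω - S.τ n k ω ≤ ε ∧
    ∀ u ∈ Icc (S.τ n k ω) (S.τ n (k + 1) ω), |S.W n ω u - S.W n ω (S.τ n k ω)| ≤ ε

lemma exists_smallBy [∀ n, Finite (Ω n)] (S : Sys Ω) (hW : ∀ n ω, Continuous (S.W n ω))
    (hunb : ∀ n ω T, ∃ k, T < S.τ n k ω) (T R : ℝ) (n : ℕ) : ∃ ε, 0 ≤ ε ∧ SmallBy S T R n ε := by
  -- one step
  have h1 : ∀ ω k, ∃ C, 0 ≤ C ∧ S.τ n (k + 1) ω - S.τ n k ω ≤ C ∧
      ∀ u ∈ Icc (S.τ n k ω) (S.τ n (k + 1) ω), |S.W n ω u - S.W n ω (S.τ n k ω)| ≤ C := by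
    intro ω k
    have hc : ContinuousOn (fun u => S.W n ω u - S.W n ω (S.τ n k ω))
        (Icc (S.τ n k ω) (S.τ n (k + 1) ω)) := ((hW n ω).sub continuous_const).continuousOn
    obtain ⟨C, hC⟩ := isCompact_Icc.exists_bound_of_continuousOn hc
    refine ⟨max (max (S.τ n (k + 1) ω - S.τ n k ω) 0) C,
      (le_max_right _ _).trans (le_max_left _ _), (le_max_left _ _).trans (le_max_left _ _),
      fun u hu => ?_⟩
    rw [← Real.norm_eq_abs]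
    exact (hC u hu).trans (le_max_right _ _)
  choose C hC0 hC1 hC2 using h1
  -- finitely many steps
  have h2 : ∀ ω, ∃ D, ∀ k, S.Bef T R n ω (k + 1) → C ω k ≤ D := by
    intro ω
    obtain ⟨K, hK⟩ := hunb n ω T
    refine ⟨∑ k ∈ Finset.range K, C ω k, fun k hk => ?_⟩
    have hkK : k < K := by
      by_contra hcon
      exact absurd (hk K (by omega)).1 (not_le.2 hK)
    exact Finset.single_le_sum (f := fun k => C ω k) (fun i _ => hC0 ω i)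
      (Finset.mem_range.2 hkK)
  choose D hD using h2
  obtain ⟨E, hE⟩ := (Set.finite_range D).bddAbove
  refine ⟨max E 0, le_max_right _ _, fun ω k hk => ?_⟩
  have h3 : C ω k ≤ max E 0 := (hD ω k hk).trans ((hE (mem_range_self ω)).trans (le_max_left _ _))
  exact ⟨(hC1 ω k).trans h3, fun u hu => (hC2 ω k u hu).trans h3⟩

/-- The field `small` of `Sys.Ok` follows from the eventual smallness. -/
theorem small_of_eventually [∀ n, Finite (Ω n)] (S : Sys Ω) (hW : ∀ n ω, Continuous (S.W n ω))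
    (hunb : ∀ n ω T, ∃ k, T < S.τ n k ω)
    (h : ∀ T R ε : ℝ, 0 < ε → ∀ᶠ n in atTop, SmallBy S T R n ε) (T R : ℝ) :
    ∃ e : ℕ → ℝ, Tendsto e atTop (𝓝 0) ∧ ∀ n ω k, S.Bef T R n ω (k + 1) →
      S.τ n (k + 1) ω - S.τ n k ω ≤ e n ∧
        ∀ u ∈ Icc (S.τ n k ω) (S.τ n (k + 1) ω), |S.W n ω u - S.W n ω (S.τ n k ω)| ≤ e n := by
  have hne : ∀ n, {ε | 0 ≤ ε ∧ SmallBy S T R n ε}.Nonempty := fun n => by
    obtain ⟨ε, h1, h2⟩ := exists_smallBy S hW hunb T R n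
    exact ⟨ε, h1, h2⟩
  have hbd : ∀ n, BddBelow {ε | 0 ≤ ε ∧ SmallBy S T R n ε} := fun n => ⟨0, fun ε hε => hε.1⟩
  refine ⟨fun n => sInf {ε | 0 ≤ ε ∧ SmallBy S T R n ε}, ?_, ?_⟩
  · rw [Metric.tendsto_nhds]
    intro ε hε
    filter_upwards [h T R (ε / 2) (by positivity)] with n hn
    have h1 : sInf {ε | 0 ≤ ε ∧ SmallBy S T R n ε} ≤ ε / 2 :=
      csInf_le (hbd n) ⟨by positivity, hn⟩
    have h2 : 0 ≤ sInf {ε | 0 ≤ ε ∧ SmallBy S T R n ε} := le_csInf (hne n) fun ε hε => hε.1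
    rw [Real.dist_eq, sub_zero, abs_of_nonneg h2]
    linarith
  · intro n ω k hk
    exact ⟨le_csInf (hne n) fun ε hε => (hε.2 ω k hk).1,
      fun u hu => le_csInf (hne n) fun ε hε => (hε.2 ω k hk).2 u hu⟩

end Gen

/-! ### The times of the steps -/

/-- The capacities at the lattice steps `t 0, …, t m`, going to infinity afterwards. -/
noncomputable def tau (c : ℝ → ℝ) (t : ℕ → ℝ) (m k : ℕ) : ℝ := c (t (min k m)) + ((k - m : ℕ) : ℝ)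

variable {c : ℝ → ℝ} {t : ℕ → ℝ} {m : ℕ}

lemma tau_of_le {k : ℕ} (hk : k ≤ m) : tau c t m k = c (t k) := by
  unfold tau
  rw [min_eq_left hk, Nat.sub_eq_zero_of_le hk, Nat.cast_zero, add_zero]

lemma tau_mono (hc : ∀ k < m, c (t k) ≤ c (t (k + 1))) : Monotone (tau c t m) := by
  refine monotone_nat_of_le_succ fun k => ?_
  rcases lt_or_ge k m with h | h
  · rw [tau_of_le h.le, tau_of_le h]
    exact hc k h
  · unfold tau
    rw [min_eq_right h, min_eq_right (h.trans (Nat.le_succ k))]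
    have : ((k - m : ℕ) : ℝ) ≤ ((k + 1 - m : ℕ) : ℝ) := by
      exact_mod_cast Nat.sub_le_sub_right (Nat.le_succ k) m
    linarith

lemma tau_unb (T : ℝ) : ∃ k, T < tau c t m k := by
  obtain ⟨j, hj⟩ := exists_nat_gt (T - c (t m))
  refine ⟨m + j, ?_⟩
  unfold tau
  rw [min_eq_right (Nat.le_add_right m j), Nat.add_sub_cancel_left]
  linarith

/-- The data of one configuration: the driver, the curve, the capacity, and the lattice steps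
`t 0 = 0 ≤ … ≤ t m`; every step has diameter less than `δ` in the domain, and the curve at the time
`t m` is at distance less than `δ` from the end point. -/
structure Path (ψ : ℂ → ℂ) (b : ℂ) (δ : ℝ) (W : ℝ → ℝ) (η : ℝ → ℂ) (c : ℝ → ℝ) (T₁ : ℝ) (m : ℕ)
    (t : ℕ → ℝ) : Prop where
  contW : Continuous W
  W0 : W 0 = 0
  sgen : ARCX.SGen W η c T₁
  t0 : t 0 = 0
  le : ∀ k < m, t k ≤ t (k + 1)
  lt : t m < T₁
  diam : ∀ k < m, ∀ r ∈ Icc (t k) (t (k + 1)), dist (ψ (η r)) (ψ (η (t k))) < δ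
  fin : dist (ψ (η (t m))) b < δ

lemma Path.mono {ψ : ℂ → ℂ} {b : ℂ} {δ δ' : ℝ} {W : ℝ → ℝ} {η : ℝ → ℂ} {c : ℝ → ℝ} {T₁ : ℝ}
    {m : ℕ} {t : ℕ → ℝ} (h : Path ψ b δ W η c T₁ m t) (hδ : δ ≤ δ') :
    Path ψ b δ' W η c T₁ m t :=
  ⟨h.contW, h.W0, h.sgen, h.t0, h.le, h.lt, fun k hk r hr => (h.diam k hk r hr).trans_le hδ,
    h.fin.trans_le hδ⟩

lemma Path.t_mem {ψ : ℂ → ℂ} {b : ℂ} {δ : ℝ} {W : ℝ → ℝ} {η : ℝ → ℂ} {c : ℝ → ℝ} {T₁ : ℝ}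
    {m : ℕ} {t : ℕ → ℝ} (h : Path ψ b δ W η c T₁ m t) {k : ℕ} (hk : k ≤ m) : t k ∈ Ico 0 T₁ := by
  have htmono : ∀ j k, j ≤ k → k ≤ m → t j ≤ t k := by
    intro j k hjk
    induction hjk with
    | refl => intro _; exact le_rfl
    | step _ ih =>
      intro hkm
      exact (ih (Nat.le_of_succ_le hkm)).trans (h.le _ hkm)
  refine ⟨?_, (htmono k m hk le_rfl).trans_lt h.lt⟩
  rw [← h.t0]
  exact htmono 0 k (Nat.zero_le k) hk

lemma Path.c_le {ψ : ℂ → ℂ} {b : ℂ} {δ : ℝ} {W : ℝ → ℝ} {η : ℝ → ℂ} {c : ℝ → ℝ} {T₁ : ℝ}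
    {m : ℕ} {t : ℕ → ℝ} (h : Path ψ b δ W η c T₁ m t) {k : ℕ} (hk : k < m) :
    c (t k) ≤ c (t (k + 1)) :=
  h.sgen.mono.monotoneOn (h.t_mem hk.le) (h.t_mem hk) (h.le k hk)

/-- **The step hypothesis of the martingale block.** -/
theorem sys_small {Ω : ℕ → Type*} [mΩ : ∀ n, MeasurableSpace (Ω n)] [∀ n, Finite (Ω n)]
    (S : Sys Ω) {ψ : ℂ → ℂ} {b : ℂ} (hψc : ContinuousOn ψ {z : ℂ | 0 ≤ z.im})
    (hψne : ∀ z : ℂ, 0 ≤ z.im → ψ z ≠ b)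
    (hψinf : Tendsto ψ (Bornology.cobounded ℂ ⊓ 𝓟 {z | 0 ≤ z.im}) (𝓝 b))
    {ψn : ℕ → ℂ → ℂ} (hd : ∀ n, DifferentiableOn ℂ (ψn n) {z : ℂ | 0 < z.im})
    (hi : ∀ n, InjOn (ψn n) {z : ℂ | 0 < z.im})
    (hun : ∀ ε > 0, ∀ᶠ n in atTop, ∀ z : ℂ, 0 ≤ z.im → dist (ψn n z) (ψ z) < ε)
    {δ : ℕ → ℝ} (hδ : Tendsto δ atTop (𝓝 0)) (η : ∀ n, Ω n → ℝ → ℂ) (c : ∀ n, Ω n → ℝ → ℝ)
    (T₁ : ∀ n, Ω n → ℝ) (m : ∀ n, Ω n → ℕ) (t : ∀ n, Ω n → ℕ → ℝ)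
    (hP : ∀ n ω, Path (ψn n) b (δ n) (S.W n ω) (η n ω) (c n ω) (T₁ n ω) (m n ω) (t n ω))
    (hτ : ∀ n ω k, S.τ n k ω = tau (c n ω) (t n ω) (m n ω) k) :
    (∀ n ω, S.τ n 0 ω = 0) ∧ (∀ n ω, S.W n ω 0 = 0) ∧ (∀ n ω, Monotone fun k => S.τ n k ω) ∧
    (∀ n ω T, ∃ k, T < S.τ n k ω) ∧
    ∀ T R : ℝ, ∃ e : ℕ → ℝ, Tendsto e atTop (𝓝 0) ∧ ∀ n ω k, S.Bef T R n ω (k + 1) →
      S.τ n (k + 1) ω - S.τ n k ω ≤ e n ∧
        ∀ u ∈ Icc (S.τ n k ω) (S.τ n (k + 1) ω), |S.W n ω u - S.W n ω (S.τ n k ω)| ≤ e n := by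
  have hunb : ∀ n ω T, ∃ k, T < S.τ n k ω := by
    intro n ω T
    obtain ⟨k, hk⟩ := tau_unb (c := c n ω) (t := t n ω) (m := m n ω) T
    exact ⟨k, by rw [hτ]; exact hk⟩
  refine ⟨fun n ω => ?_, fun n ω => (hP n ω).W0, fun n ω => ?_, hunb, ?_⟩
  · rw [hτ, tau_of_le (Nat.zero_le _), (hP n ω).t0]
    exact (hP n ω).sgen.c_zero
  · have : (fun k => S.τ n k ω) = tau (c n ω) (t n ω) (m n ω) := funext fun k => hτ n ω k
    rw [this]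
    exact tau_mono fun k hk => (hP n ω).c_le hk
  refine small_of_eventually S (fun n ω => (hP n ω).contW) hunb ?_
  intro T R ε hε
  obtain ⟨δ₀, hδ₀, hst⟩ := steps_seq hψc hψne hψinf hd hi hun T R hε
  filter_upwards [hst, hδ.eventually (gt_mem_nhds hδ₀)] with n hn hδn
  intro ω k hbef
  have hp := (hP n ω).mono hδn.le
  have hs := hn (S.W n ω) (η n ω) (c n ω) (T₁ n ω) (m n ω) (t n ω) hp.contW hp.W0 hp.sgen hp.t0
    hp.le hp.lt hp.diam hp.fin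
  have hb : ∀ j ≤ k, j ≤ m n ω → c n ω (t n ω j) ≤ T ∧ |S.W n ω (c n ω (t n ω j))| ≤ R := by
    intro j hj hjm
    have := hbef j (Nat.lt_succ_of_le hj)
    unfold Sys.V at this
    rwa [hτ, tau_of_le hjm] at this
  rcases lt_or_ge k (m n ω) with h | h
  · obtain ⟨-, h1, h2⟩ := hs k h.le fun j hj => hb j hj (hj.trans h.le)
    rw [hτ, hτ, tau_of_le h.le, tau_of_le h]
    exact ⟨h1, h2⟩
  · exact absurd (hs (m n ω) le_rfl fun j hj => hb j (hj.trans h) hj).1 (lt_irrefl _)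

end Vale.Agent.P153.R2.STEP
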