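import Vale.Agent.P153.R2.HULL.Bounds
import Vale.Agent.P153.R2.HULL.Main
import Vale.Agent.P153.R2.L1.Stmts

/-!
# P153, block STEP: the Loewner flow is hydrodynamically normalised; small hulls

* `gf_isHydro`: `z ↦ g_s(z)` is the hydrodynamically normalised map of its domain;
* `osc_of_hull`: a hull contained in the ball of radius `r` about the starting point of the driver
  has Loewner time `≤ r ^ 2 / 2` and the driver oscillates by at most `7 r`.
-/

open Set Metric Filter Topology Vale.Agent.P164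
open Vale.Agent.P153.R2.HULL

namespace Vale.Agent.P153.R2.STEP

variable {W : ℝ → ℝ} {s t M : ℝ} {z : ℂ}

lemma exists_bd (hW : Continuous W) (t : ℝ) : ∃ M : ℝ, 0 ≤ M ∧ ∀ u ∈ Icc 0 t, |W u| ≤ M := by
  obtain ⟨M, hM⟩ := isCompact_Icc.exists_bound_of_continuousOn (hW.continuousOn (s := Icc 0 t))
  exact ⟨|M|, abs_nonneg _, fun u hu => ((Real.norm_eq_abs _).symm.le.trans (hM u hu)).trans
    (le_abs_self M)⟩

/-- Points which die soon are close to the driving function. -/
lemma near_dying {V : ℝ → ℝ} (hV : Continuous V) {ϰ T : ℝ} (hϰ : 0 < ϰ) (ht : 0 ≤ t) (htT : t ≤ T)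
    (hz : z ∈ loewnerDomain V t) (hz' : z ∉ loewnerDomain V T) (hT : T - t ≤ ϰ ^ 2 / 64)
    (hosc : ∀ u ∈ Icc t T, |V u - V t| ≤ ϰ / 8) : ‖Zf V z t‖ < ϰ := by
  by_contra hcon
  exact hz' (one_step_alive hϰ hV ht htT hz (not_lt.1 hcon) hT le_rfl hosc)

/-- The semigroup property of the domains. -/
theorem dom_shift (hs : 0 ≤ s) (hst : s ≤ t) (hz : z ∈ loewnerDomain W s) :
    z ∈ loewnerDomain W t ↔ Zf W z s ∈ loewnerDomain (fun u => W (s + u) - W s) (t - s) := by
  constructor
  · rintro ⟨g, hg⟩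
    have : Zf W z s = g s - (W s : ℂ) := by
      rw [Zf_eq, gf_eq hg ⟨hs, hst⟩]
    rw [this]
    exact ⟨_, hg.shift hs⟩
  · rintro ⟨g', hg'⟩
    obtain ⟨g, hg⟩ := hz
    have : Zf W z s = g s - (W s : ℂ) := by
      rw [Zf_eq, gf_eq hg ⟨hs, le_rfl⟩]
    rw [this] at hg'
    have := hg.concat hs (sub_nonneg.2 hst) hg'
    rw [show s + (t - s) = t by ring] at this
    exact ⟨_, this⟩

/-- Quantitative displacement of far points. -/
lemma gf_far (hW : Continuous W) (hs : 0 < s) (hM : ∀ u ∈ Icc 0 s, |W u| ≤ M)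
    (hz : 0 < z.im) (hfar : M + 3 * √s < ‖z‖) :
    ‖gf W z s - z‖ ≤ 2 / (‖z‖ - M - √s) * s := by
  have hq : 0 < √s := Real.sqrt_pos.2 hs
  obtain ⟨hd, hmove⟩ := far_alive hW hs hM hz hfar
  have hpos : 0 < ‖z‖ - M - √s := by linarith
  have hmv : ‖gf W z s - gf W z 0‖ ≤ 2 / (‖z‖ - M - √s) * ‖s - 0‖ := by
    refine (convex_Icc 0 s).norm_image_sub_le_of_norm_hasDerivWithin_le
      (f := fun v => gf W z v) (f' := fun v => 2 / Zf W z v)
      (fun v hv => gf_hasDeriv hd hv) ?_ ⟨le_rfl, hs.le⟩ ⟨hs.le, le_rfl⟩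
    intro v hv
    have h1 := norm_Zf_ge (z := z) hM hv
    have h2 := hmove v hv
    have h3 := norm_sub_norm_le z (gf W z v)
    rw [norm_sub_rev] at h3
    rw [norm_div, Complex.norm_ofNat]
    exact div_le_div_of_nonneg_left (by norm_num) hpos (by linarith)
  rwa [gf_zero hz, sub_zero, Real.norm_eq_abs, abs_of_pos hs] at hmv

lemma dom_compl (hs : 0 ≤ s) : L1.HH \ (L1.HH \ loewnerDomain W s) = loewnerDomain W s := by
  ext z
  constructor
  · rintro ⟨h1, h2⟩
    by_contra h3
    exact h2 ⟨h1, h3⟩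
  · intro h
    exact ⟨im_pos_of_dom hs h, fun h2 => h2.2 h⟩

/-- The Loewner flow is hydrodynamically normalised. -/
theorem gf_isHydro (hW : Continuous W) (hs : 0 ≤ s) :
    L1.IsHydro (L1.HH \ loewnerDomain W s) (fun z => gf W z s) := by
  obtain ⟨M, hM0, hM⟩ := exists_bd hW s
  constructor
  · rcases hs.eq_or_lt with h0 | h0
    · have : L1.HH \ loewnerDomain W s = ∅ := by
        rw [← h0]
        ext z
        simp only [Set.mem_sdiff, mem_empty_iff_false, iff_false]
        intro hz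
        exact hz.2 (dom_zero.2 hz.1)
      rw [this]
      exact Bornology.isBounded_empty
    · refine (isBounded_closedBall (x := (0 : ℂ)) (r := M + 3 * √s)).subset ?_
      rintro z ⟨hz1, hz2⟩
      rw [mem_closedBall, dist_zero_right]
      by_contra hcon
      exact hz2 (far_alive hW h0 hM hz1 (not_le.1 hcon)).1
  · rw [dom_compl hs]
    exact isOpen_dom hW hs
  · rw [dom_compl hs]
    intro z hz
    have h1 : DifferentiableAt ℂ (fun z => Zf W z s) z := (Zf_hasDerivAt hW hs hz).differentiableAt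
    exact (h1.add_const (W s : ℂ)).differentiableWithinAt
  · rw [dom_compl hs]
    intro z hz w hw h
    exact Zf_injOn hW hs hz hw (by simpa [gf] using h)
  · rw [dom_compl hs]
    ext w
    constructor
    · rintro ⟨z, hz, rfl⟩
      have := Zf_im_pos hs hz
      rw [Zf_im_eq] at this
      exact this
    · intro hw
      have hw' : 0 < w.im := hw
      obtain ⟨z, hz, h⟩ := Zf_surj hW hs (w := w - (W s : ℂ)) (by simpa using hw')
      refine ⟨z, hz, ?_⟩
      simp only [gf, h]
      ring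
  · rw [dom_compl hs, Metric.tendsto_nhds]
    intro ε hε
    rcases hs.eq_or_lt with h0 | h0
    · have : ∀ᶠ z in Bornology.cobounded ℂ ⊓ 𝓟 (loewnerDomain W s), z ∈ loewnerDomain W s :=
        mem_inf_of_right (mem_principal_self _)
      filter_upwards [this] with z hz
      have hz' : 0 < z.im := im_pos_of_dom hs hz
      rw [← h0, gf_zero hz', sub_self, dist_self]
      exact hε
    · have h1 : ∀ᶠ z : ℂ in Bornology.cobounded ℂ ⊓ 𝓟 (loewnerDomain W s),
          z ∈ loewnerDomain W s := mem_inf_of_right (mem_principal_self _)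
      have h2 : ∀ᶠ z : ℂ in Bornology.cobounded ℂ ⊓ 𝓟 (loewnerDomain W s),
          M + 3 * √s + 2 * s / ε < ‖z‖ := by
        refine mem_inf_of_left ?_
        have := tendsto_norm_cobounded_atTop (E := ℂ)
        exact this.eventually (eventually_gt_atTop _)
      filter_upwards [h1, h2] with z hz hn
      have hq : 0 < √s := Real.sqrt_pos.2 h0
      have hse : 0 < 2 * s / ε := by positivity
      have h3 := gf_far hW h0 hM (im_pos_of_dom hs hz) (by linarith)
      have hpos : 0 < ‖z‖ - M - √s := by linarith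
      rw [dist_zero_right]
      refine h3.trans_lt ?_
      rw [div_mul_eq_mul_div, div_lt_iff₀ hpos]
      have h4 : 2 * s / ε < ‖z‖ - M - √s := by linarith
      rw [div_lt_iff₀ hε] at h4
      linarith

/-- Displacement of all points by a hull contained in a ball about a real point. -/
theorem gf_disp (hW : Continuous W) (hs : 0 ≤ s) {x₀ r : ℝ} (hr : 0 ≤ r)
    (hK : ∀ z : ℂ, 0 < z.im → r < ‖z - x₀‖ → z ∈ loewnerDomain W s) (hz : z ∈ loewnerDomain W s) :
    ‖gf W z s - z‖ ≤ 6 * r := by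
  refine L1.disp6 (gf_isHydro hW hs) hr (x₀ := x₀) ?_ (z := z) ?_
  · rintro w ⟨hw1, -, hw2⟩
    rw [mem_closedBall, dist_eq_norm]
    by_contra hcon
    exact hw2 (hK w hw1 (not_le.1 hcon))
  · rw [dom_compl hs]
    exact hz

/-- A small hull takes a short time and moves the driver little. -/
theorem osc_of_hull {V : ℝ → ℝ} (hV : Continuous V) (hV0 : V 0 = 0) (ht : 0 ≤ t) {r : ℝ} (hr : 0 < r)
    (h : ∀ z : ℂ, 0 < z.im → r < ‖z‖ → z ∈ loewnerDomain V t) :
    t ≤ r ^ 2 / 2 ∧ ∀ u ∈ Icc 0 t, |V u| ≤ 7 * r := by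
  refine ⟨cap_le hV ht hr h, ?_⟩
  rcases ht.eq_or_lt with h0 | h0
  · intro u hu
    have : u = 0 := le_antisymm (hu.2.trans h0.symm.le) hu.1
    rw [this, hV0, abs_zero]
    positivity
  have key : ∀ u, 0 ≤ u → u < t → |V u| ≤ 7 * r := by
    intro u hu hut
    refine le_of_forall_pos_le_add fun ϰ hϰ => ?_
    -- a short time interval
    obtain ⟨T, huT, hTt, hT1, hosc⟩ : ∃ T, u < T ∧ T ≤ t ∧ T - u ≤ ϰ ^ 2 / 64 ∧
        ∀ v ∈ Icc u T, |V v - V u| ≤ ϰ / 8 := by
      obtain ⟨δ, hδ, hc⟩ := Metric.continuousAt_iff.1 (hV.continuousAt (x := u)) (ϰ / 8)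
        (by positivity)
      refine ⟨min t (u + min (δ / 2) (ϰ ^ 2 / 64)), lt_min hut (by
        have : 0 < min (δ / 2) (ϰ ^ 2 / 64) := lt_min (by positivity) (by positivity)
        linarith), min_le_left _ _, ?_, ?_⟩
      · have h1 := min_le_right t (u + min (δ / 2) (ϰ ^ 2 / 64))
        have h2 := min_le_right (δ / 2) (ϰ ^ 2 / 64)
        linarith
      · intro v hv
        have h1 := hv.2.trans (min_le_right t (u + min (δ / 2) (ϰ ^ 2 / 64)))
        have h2 := min_le_left (δ / 2) (ϰ ^ 2 / 64)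
        have h3 : dist v u < δ := by
          rw [Real.dist_eq, abs_of_nonneg (by linarith [hv.1])]
          linarith
        have := hc h3
        rw [Real.dist_eq] at this
        exact this.le
    obtain ⟨z, hz, hz'⟩ := dom_strict hV hu huT
    have hzr : ‖z‖ ≤ r := by
      by_contra hcon
      exact hz' (dom_mono hTt (h z (im_pos_of_dom hu hz) (not_le.1 hcon)))
    have h1 := near_dying hV hϰ hu huT.le hz hz' hT1 hosc
    have h2 : ‖gf V z u - z‖ ≤ 6 * r :=
      gf_disp hV hu (x₀ := 0) hr.le (fun w hw hwr => dom_mono hut.le (h w hw (by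
        simpa using hwr))) hz
    have h3 : ‖((V u : ℝ) : ℂ)‖ ≤ ‖gf V z u‖ + ‖Zf V z u‖ := by
      have e : ((V u : ℝ) : ℂ) = gf V z u - Zf V z u := by rw [Zf_eq]; ring
      rw [e]
      exact norm_sub_le _ _
    rw [Complex.norm_real, Real.norm_eq_abs] at h3
    have h4 : ‖gf V z u‖ ≤ ‖gf V z u - z‖ + ‖z‖ := norm_le_norm_sub_add _ _
    linarith
  intro u hu
  rcases hu.2.eq_or_lt with h1 | h1
  · rw [h1]
    have h4 : (𝓝[Ioo 0 t] t).NeBot := by
      rw [← mem_closure_iff_nhdsWithin_neBot, closure_Ioo h0.ne]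
      exact ⟨h0.le, le_rfl⟩
    have h5 : Tendsto (fun v => |V v|) (𝓝[Ioo 0 t] t) (𝓝 |V t|) :=
      (hV.abs.tendsto t).mono_left nhdsWithin_le_nhds
    refine le_of_tendsto h5 ?_
    filter_upwards [self_mem_nhdsWithin] with v hv
    exact key v hv.1.le hv.2
  · exact key u hu.1 h1

end Vale.Agent.P153.R2.STEP
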