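import Vale.Agent.P153.R2.STEP.Step

/-!
# P153, block STEP: all lattice steps

`steps`: as long as the capacity is at most `T` and the driver is in `[-R, R]`, the lattice steps
change the capacity and the driver by at most `ε`, and the curve is not near its end point, if the
mesh is small; uniformly in everything. `steps_seq`: the same along a sequence of uniformizers.
-/

open Set Metric Filter Topology Vale.Agent.P164
open Vale.Agent.P153.R2.HULL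
open scoped Real

namespace Vale.Agent.P153.R2.STEP

variable {W : ℝ → ℝ} {s t M : ℝ} {z : ℂ}

lemma gf_norm_le' (hs : 0 ≤ s) (hM : ∀ u ∈ Icc 0 s, |W u| ≤ M)
    (h : z ∈ loewnerDomain W s) : ‖gf W z s‖ ≤ max ‖z‖ (M + 2 * √s) + √s := by
  rcases hs.eq_or_lt with h0 | h0
  · rw [← h0, gf_zero (im_pos_of_dom hs h)]
    have h1 := le_max_left ‖z‖ (M + 2 * √0)
    have h2 := Real.sqrt_nonneg 0
    linarith
  · exact gf_norm_le h0 hM h

/-- The curve at a time when the driver is bounded. -/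
lemma curve_norm_le (hW : Continuous W) (hW0 : W 0 = 0) {η : ℝ → ℂ} {c : ℝ → ℝ} {T₁ : ℝ}
    (hg : ARCX.SGen W η c T₁) (hs : s ∈ Ico 0 T₁) (hM0 : 0 ≤ M)
    (hM : ∀ u ∈ Icc 0 (c s), |W u| ≤ M) : ‖η s‖ ≤ M + 3 * √(c s) ∧ 0 ≤ (η s).im := by
  have h0I : (0 : ℝ) ∈ Ico 0 T₁ := ⟨le_rfl, hg.pos⟩
  rcases hs.1.eq_or_lt with h0 | h0
  · rw [← h0, hg.start, hW0]
    simp only [Complex.ofReal_zero, norm_zero, Complex.zero_im, le_refl, and_true]
    have := Real.sqrt_nonneg (c 0)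
    linarith
  · have hc : 0 < c s := by
      rw [← hg.c_zero]
      exact hg.mono h0I hs h0
    have hi := hg.im_pos s ⟨h0, hs.2⟩
    refine ⟨?_, hi.le⟩
    by_contra hcon
    have h1 := (far_alive hW hc hM hi (not_le.1 hcon)).1
    rw [hg.dom s hs] at h1
    exact h1.2 ⟨s, ⟨hs.1, le_rfl⟩, rfl⟩

/-- The constants. -/
lemma consts {ε d N : ℝ} (hε : 0 < ε) (hd : 0 < d) : ∃ l δ₀ : ℝ, 0 < l ∧ 0 < δ₀ ∧ δ₀ < d / 2 ∧
    l ^ 2 / 2 ≤ ε ∧ 7 * l ≤ ε ∧ 7 * l ≤ 1 ∧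
    4 * π ^ 2 * N ^ 2 / Real.log (d / 2 / δ₀) ≤ l ^ 2 := by
  obtain ⟨l, hl⟩ : ∃ l, l = min ε 1 / 7 := ⟨_, rfl⟩
  have hl0 : 0 < l := by
    rw [hl]
    have : 0 < min ε 1 := lt_min hε one_pos
    positivity
  have hl1 : 7 * l ≤ ε := by
    have := min_le_left ε 1
    rw [hl]; linarith
  have hl2 : 7 * l ≤ 1 := by
    have := min_le_right ε 1
    rw [hl]; linarith
  obtain ⟨K, hK⟩ : ∃ K, K = 4 * π ^ 2 * N ^ 2 / l ^ 2 := ⟨_, rfl⟩
  have hK0 : 0 ≤ K := by rw [hK]; positivity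
  refine ⟨l, d / 2 * Real.exp (-(K + 1)), hl0, by positivity, ?_, by nlinarith, hl1, hl2, ?_⟩
  · have h1 : Real.exp (-(K + 1)) < 1 := by
      have := Real.exp_lt_exp.2 (show -(K + 1) < 0 by linarith)
      rwa [Real.exp_zero] at this
    nlinarith
  · have h1 : d / 2 / (d / 2 * Real.exp (-(K + 1))) = Real.exp (K + 1) := by
      rw [Real.exp_neg]
      field_simp
    rw [h1, Real.log_exp, div_le_iff₀ (by linarith)]
    have h2 : l ^ 2 * (K + 1) = 4 * π ^ 2 * N ^ 2 + l ^ 2 := by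
      rw [hK]
      field_simp
    rw [h2]
    have : 0 < l ^ 2 := by positivity
    linarith

/-- **The lattice steps.** -/
theorem steps (T R : ℝ) {ε d M₁ : ℝ} (hε : 0 < ε) (hd : 0 < d) : ∃ δ₀ > 0,
    ∀ (ψ : ℂ → ℂ) (b : ℂ), DifferentiableOn ℂ ψ {z : ℂ | 0 < z.im} →
      InjOn ψ {z : ℂ | 0 < z.im} →
      (∀ z : ℂ, 0 < z.im → d / 2 ≤ dist (ψ z) b → ‖z‖ ≤ M₁) →
      (∀ z : ℂ, 0 ≤ z.im → ‖z‖ ≤ |R| + 1 + 3 * √T → d ≤ dist (ψ z) b) →
      ∀ (W : ℝ → ℝ) (η : ℝ → ℂ) (c : ℝ → ℝ) (T₁ : ℝ) (m : ℕ) (t : ℕ → ℝ), Continuous W →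
        W 0 = 0 → ARCX.SGen W η c T₁ → t 0 = 0 → (∀ k < m, t k ≤ t (k + 1)) → t m < T₁ →
        (∀ k < m, ∀ r ∈ Icc (t k) (t (k + 1)), dist (ψ (η r)) (ψ (η (t k))) < δ₀) →
        dist (ψ (η (t m))) b < δ₀ →
        ∀ k ≤ m, (∀ j ≤ k, c (t j) ≤ T ∧ |W (c (t j))| ≤ R) →
          k < m ∧ c (t (k + 1)) - c (t k) ≤ ε ∧
            ∀ u ∈ Icc (c (t k)) (c (t (k + 1))), |W u - W (c (t k))| ≤ ε := by
  obtain ⟨N, hN⟩ : ∃ N, N = max M₁ (|R| + 1 + 2 * √T) + √T := ⟨_, rfl⟩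
  obtain ⟨l, δ₀, hl, hδ, hδd, hl1, hl2, hl3, hlog⟩ := consts (N := N) hε hd
  refine ⟨δ₀, hδ, ?_⟩
  intro ψ b hψd hψi hU1 hU2 W η c T₁ m t hW hW0 hg ht0 htm htT hdiam hend
  have htmono : ∀ j k, j ≤ k → k ≤ m → t j ≤ t k := by
    intro j k hjk
    induction hjk with
    | refl => intro _; exact le_rfl
    | step _ ih =>
      intro hkm
      exact (ih (Nat.le_of_succ_le hkm)).trans (htm _ hkm)
  have htI : ∀ k ≤ m, t k ∈ Ico 0 T₁ := by
    intro k hk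
    refine ⟨?_, (htmono k m hk le_rfl).trans_lt htT⟩
    rw [← ht0]
    exact htmono 0 k (Nat.zero_le k) hk
  -- a step with the bound for the driver up to the present
  have hstep : ∀ k ≤ m, c (t k) ≤ T → (∀ u ∈ Icc 0 (c (t k)), |W u| ≤ |R| + 1) →
      k < m ∧ c (t (k + 1)) - c (t k) ≤ l ^ 2 / 2 ∧
        ∀ u ∈ Icc (c (t k)) (c (t (k + 1))), |W u - W (c (t k))| ≤ 7 * l := by
    intro k hk hcT hbd
    have hM0 : 0 ≤ |R| + 1 := by positivity
    have h0I : (0 : ℝ) ∈ Ico 0 T₁ := ⟨le_rfl, hg.pos⟩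
    have hc0 : 0 ≤ c (t k) := by
      rw [← hg.c_zero]
      exact hg.mono.monotoneOn h0I (htI k hk) (htI k hk).1
    have hsq : √(c (t k)) ≤ √T := Real.sqrt_le_sqrt hcT
    obtain ⟨h1, h2⟩ := curve_norm_le hW hW0 hg (htI k hk) hM0 hbd
    have h3 : d ≤ dist (ψ (η (t k))) b := hU2 _ h2 (by linarith)
    have hkm : k < m := by
      rcases hk.eq_or_lt with h | h
      · rw [h] at h3
        linarith
      · exact h
    refine ⟨hkm, ?_⟩
    rcases (htm k hkm).eq_or_lt with h4 | h4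
    · rw [← h4]
      refine ⟨by rw [sub_self]; positivity, fun u hu => ?_⟩
      have : u = c (t k) := le_antisymm hu.2 hu.1
      rw [this, sub_self, abs_zero]
      positivity
    · refine step_one hW hψd hψi hg (htI k hk).1 h4 (htI (k + 1) hkm).2 (p := ψ (η (t k)))
        (a := δ₀) (b := d / 2) (N := N) hδ hδd ?_ ?_ hl hlog
      · intro r hr
        exact hdiam k hkm r ⟨hr.1.le, hr.2⟩
      · intro z hz hzb
        have hzi := im_pos_of_dom hc0 hz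
        have h5 : d / 2 ≤ dist (ψ z) b := by
          have h6 := dist_triangle (ψ (η (t k))) (ψ z) b
          rw [mem_ball, dist_comm] at hzb
          linarith
        have h7 := hU1 z hzi h5
        have h8 := gf_norm_le' hc0 hbd hz
        rw [hN]
        refine h8.trans (add_le_add (max_le_max h7 (by linarith)) hsq)
  have hbd : ∀ k ≤ m, (∀ j ≤ k, c (t j) ≤ T ∧ |W (c (t j))| ≤ R) →
      ∀ u ∈ Icc 0 (c (t k)), |W u| ≤ |R| + 1 := by
    intro k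
    induction k with
    | zero =>
      intro _ _ u hu
      rw [ht0, hg.c_zero] at hu
      have : u = 0 := le_antisymm hu.2 hu.1
      rw [this, hW0, abs_zero]
      positivity
    | succ k ih =>
      intro hk hbef u hu
      have ih' := ih (Nat.le_of_succ_le hk) fun j hj => hbef j (hj.trans (Nat.le_succ k))
      have hk' := hbef k (Nat.le_succ k)
      rcases le_total u (c (t k)) with h | h
      · exact ih' u ⟨hu.1, h⟩
      · have h1 := (hstep k (Nat.le_of_succ_le hk) hk'.1 ih').2.2 u ⟨h, hu.2⟩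
        have h2 := abs_sub_abs_le_abs_sub (W u) (W (c (t k)))
        have h3 := le_abs_self R
        have h4 := hk'.2
        linarith
  intro k hk hbef
  obtain ⟨h1, h2, h3⟩ := hstep k hk (hbef k le_rfl).1 (hbd k hk hbef)
  exact ⟨h1, h2.trans hl1, fun u hu => (h3 u hu).trans hl2⟩

/-- **The lattice steps, along a sequence of uniformizers converging uniformly to the uniformizer
`ψ` of a domain with the end point `b`.** -/
theorem steps_seq {ψ : ℂ → ℂ} {b : ℂ} (hψc : ContinuousOn ψ {z : ℂ | 0 ≤ z.im})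
    (hψne : ∀ z : ℂ, 0 ≤ z.im → ψ z ≠ b)
    (hψinf : Tendsto ψ (Bornology.cobounded ℂ ⊓ 𝓟 {z | 0 ≤ z.im}) (𝓝 b))
    {ψn : ℕ → ℂ → ℂ} (hd : ∀ n, DifferentiableOn ℂ (ψn n) {z : ℂ | 0 < z.im})
    (hi : ∀ n, InjOn (ψn n) {z : ℂ | 0 < z.im})
    (hun : ∀ ε > 0, ∀ᶠ n in atTop, ∀ z : ℂ, 0 ≤ z.im → dist (ψn n z) (ψ z) < ε)
    (T R : ℝ) {ε : ℝ} (hε : 0 < ε) : ∃ δ₀ > 0, ∀ᶠ n in atTop,
      ∀ (W : ℝ → ℝ) (η : ℝ → ℂ) (c : ℝ → ℝ) (T₁ : ℝ) (m : ℕ) (t : ℕ → ℝ), Continuous W →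
        W 0 = 0 → ARCX.SGen W η c T₁ → t 0 = 0 → (∀ k < m, t k ≤ t (k + 1)) → t m < T₁ →
        (∀ k < m, ∀ r ∈ Icc (t k) (t (k + 1)),
          dist (ψn n (η r)) (ψn n (η (t k))) < δ₀) →
        dist (ψn n (η (t m))) b < δ₀ →
        ∀ k ≤ m, (∀ j ≤ k, c (t j) ≤ T ∧ |W (c (t j))| ≤ R) →
          k < m ∧ c (t (k + 1)) - c (t k) ≤ ε ∧
            ∀ u ∈ Icc (c (t k)) (c (t (k + 1))), |W u - W (c (t k))| ≤ ε := by
  -- (U2)
  have hU2 : ∃ d > 0, ∀ z : ℂ, 0 ≤ z.im → ‖z‖ ≤ |R| + 1 + 3 * √T → 2 * d ≤ dist (ψ z) b := by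
    have hK : IsCompact ({z : ℂ | 0 ≤ z.im} ∩ closedBall (0 : ℂ) (|R| + 1 + 3 * √T)) :=
      (isCompact_closedBall _ _).inter_left (isClosed_le continuous_const Complex.continuous_im)
    have hne : ({z : ℂ | 0 ≤ z.im} ∩ closedBall (0 : ℂ) (|R| + 1 + 3 * √T)).Nonempty :=
      ⟨0, by simp, mem_closedBall_self (by positivity)⟩
    obtain ⟨z₀, hz₀, hmin⟩ := hK.exists_isMinOn hne
      (f := fun z => dist (ψ z) b)
      (continuous_dist.comp_continuousOn ((hψc.mono inter_subset_left).prodMk continuousOn_const))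
    have hpos : 0 < dist (ψ z₀) b := dist_pos.2 (hψne z₀ hz₀.1)
    refine ⟨dist (ψ z₀) b / 2, by positivity, fun z hz hzn => ?_⟩
    have : dist (ψ z₀) b ≤ dist (ψ z) b :=
      isMinOn_iff.1 hmin z ⟨hz, by rw [mem_closedBall, dist_zero_right]; exact hzn⟩
    linarith
  obtain ⟨d, hd0, hd2⟩ := hU2
  -- (U1)
  have hU1 : ∃ M₁, ∀ z : ℂ, 0 ≤ z.im → M₁ < ‖z‖ → dist (ψ z) b < d / 4 := by
    have h1 := Metric.tendsto_nhds.1 hψinf (d / 4) (by positivity)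
    rw [eventually_inf_principal] at h1
    have h2 := (Metric.hasBasis_cobounded_compl_closedBall (0 : ℂ)).eventually_iff.1 h1
    obtain ⟨M₁, -, hM⟩ := h2
    refine ⟨M₁, fun z hz hzn => hM ?_ hz⟩
    rw [mem_compl_iff, mem_closedBall, dist_zero_right]
    exact not_le.2 hzn
  obtain ⟨M₁, hM₁⟩ := hU1
  obtain ⟨δ₀, hδ, h⟩ := steps T R (M₁ := M₁) hε hd0
  refine ⟨δ₀, hδ, ?_⟩
  filter_upwards [hun (d / 4) (by positivity)] with n hn
  refine h (ψn n) b (hd n) (hi n) ?_ ?_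
  · intro z hz hzd
    by_contra hcon
    have h1 := hM₁ z hz.le (not_le.1 hcon)
    have h2 := hn z hz.le
    have h3 := dist_triangle (ψn n z) (ψ z) b
    linarith
  · intro z hz hzn
    have h1 := hd2 z hz hzn
    have h2 := hn z hz
    have h3 := dist_triangle (ψ z) (ψn n z) b
    have h4 := dist_comm (ψ z) (ψn n z)
    linarith

end Vale.Agent.P153.R2.STEP
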