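import Vale.Agent.P153.R2.STEP.Flow
import Vale.Agent.P153.R2.L2.Small
import Vale.Agent.P153.R2.OBSV.Holo
import Vale.Agent.P153.R2.ARCX.Defs

/-!
# P153, block STEP: one lattice step changes the capacity and the driver little

`step_one`: a piece of the curve of small diameter (seen from the domain) takes a short time and
moves the driver little.
-/

open Set Metric Filter Topology Vale.Agent.P164
open Vale.Agent.P153.R2.HULL
open scoped Real

namespace Vale.Agent.P153.R2.STEP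

variable {W : ℝ → ℝ} {s t M : ℝ} {z : ℂ}

lemma gf_injOn (hW : Continuous W) (hs : 0 ≤ s) :
    InjOn (fun z => gf W z s) (loewnerDomain W s) := by
  intro z hz w hw h
  refine Zf_injOn hW hs hz hw ?_
  simp only [Zf_eq]
  have h' : gf W z s = gf W w s := h
  rw [h']

lemma gf_diff (hW : Continuous W) (hs : 0 ≤ s) :
    DifferentiableOn ℂ (fun z => gf W z s) (loewnerDomain W s) := by
  have := (gf_isHydro hW hs).diff
  rwa [dom_compl hs] at this

lemma gf_image (hW : Continuous W) (hs : 0 ≤ s) :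
    (fun z => gf W z s) '' (loewnerDomain W s) = L1.HH := by
  have := (gf_isHydro hW hs).image
  rwa [dom_compl hs] at this

/-- The uniformizing map of the slit domain. -/
theorem confH_slit (hW : Continuous W) (hs : 0 ≤ s) {ψ : ℂ → ℂ}
    (hd : DifferentiableOn ℂ ψ {z : ℂ | 0 < z.im}) (hi : InjOn ψ {z : ℂ | 0 < z.im}) :
    L2.ConfH (ψ '' loewnerDomain W s)
      (fun w => gf W (Function.invFunOn ψ (loewnerDomain W s) w) s)
      (fun w => ψ (Function.invFunOn (fun z => gf W z s) (loewnerDomain W s) w)) := by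
  have hsub : loewnerDomain W s ⊆ {z : ℂ | 0 < z.im} := fun z hz => im_pos_of_dom hs hz
  have ho := isOpen_dom hW hs
  have hd' := hd.mono hsub
  have hi' := hi.mono hsub
  have hgd := gf_diff hW hs
  have hgi := gf_injOn hW hs
  have hgm := gf_image hW hs
  refine ⟨OBSV.isOpen_image ho hd' hi', ?_, ?_, ?_, ?_, ?_, ?_⟩
  · exact hgd.comp (OBSV.inv_diff ho hd' hi') fun w hw => OBSV.inv_mem hw
  · intro w hw
    rw [← hgm]
    exact ⟨_, OBSV.inv_mem hw, rfl⟩
  · intro w hw
    rw [← hgm] at hw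
    exact ⟨_, OBSV.inv_mem hw, rfl⟩
  · intro w hw
    rw [← hgm] at hw
    rw [OBSV.inv_f hi' (OBSV.inv_mem hw)]
    exact OBSV.f_inv (f := fun z => gf W z s) hw
  · intro w hw
    rw [OBSV.inv_f hgi (OBSV.inv_mem hw)]
    exact OBSV.f_inv hw
  · have h1 := (OBSV.inv_diff ho hgd hgi).continuousOn
    rw [hgm] at h1
    refine hd'.continuousOn.comp h1 fun w hw => ?_
    rw [← hgm] at hw
    exact OBSV.inv_mem hw

/-- **One step.** -/
theorem step_one (hW : Continuous W) {ψ : ℂ → ℂ}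
    (hd : DifferentiableOn ℂ ψ {z : ℂ | 0 < z.im}) (hi : InjOn ψ {z : ℂ | 0 < z.im})
    {η : ℝ → ℂ} {c : ℝ → ℝ} {T₁ : ℝ} (hg : ARCX.SGen W η c T₁) {s s' : ℝ} (hs : 0 ≤ s)
    (hss : s < s') (hsT : s' < T₁) {p : ℂ} {a b N l : ℝ} (ha : 0 < a) (hab : a < b)
    (hA : ∀ r ∈ Ioc s s', ψ (η r) ∈ ball p a)
    (hN : ∀ z ∈ loewnerDomain W (c s), ψ z ∈ ball p b → ‖gf W z (c s)‖ ≤ N)
    (hl : 0 < l) (hlog : 4 * π ^ 2 * N ^ 2 / Real.log (b / a) ≤ l ^ 2) :
    c s' - c s ≤ l ^ 2 / 2 ∧ ∀ u ∈ Icc (c s) (c s'), |W u - W (c s)| ≤ 7 * l := by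
  have hsI : s ∈ Ico 0 T₁ := ⟨hs, hss.trans hsT⟩
  have hsI' : s' ∈ Ico 0 T₁ := ⟨hs.trans hss.le, hsT⟩
  have h0I : (0 : ℝ) ∈ Ico 0 T₁ := ⟨le_rfl, hg.pos⟩
  have hc0 : 0 ≤ c s := by
    rw [← hg.c_zero]
    exact hg.mono.monotoneOn h0I hsI hs
  have hcc : c s < c s' := hg.mono hsI hsI' hss
  have hC := confH_slit hW hc0 hd hi
  have hdom : ∀ r ∈ Ioc s s', η r ∈ loewnerDomain W (c s) := by
    intro r hr
    rw [hg.dom s hsI]
    refine ⟨hg.im_pos r ⟨hs.trans_lt hr.1, hr.2.trans_lt hsT⟩, ?_⟩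
    rintro ⟨v, hv, hv'⟩
    have := hg.inj ⟨hv.1, hv.2.trans_lt hsI.2⟩ ⟨hs.trans hr.1.le, hr.2.trans_lt hsT⟩ hv'
    rw [this] at hv
    exact absurd hv.2 (not_le.2 hr.1)
  have hsub : loewnerDomain W (c s) ⊆ {z : ℂ | 0 < z.im} := fun z hz => im_pos_of_dom hc0 hz
  have hi' := hi.mono hsub
  -- the image of the piece
  have hkey : ∀ r ∈ Ioc s s', ∀ r' ∈ Ioc s s', ‖gf W (η r) (c s) - gf W (η r') (c s)‖ ≤ l := by
    intro r hr r' hr'
    have hApre : IsPreconnected ((fun r => ψ (η r)) '' Ioc s s') := by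
      refine isPreconnected_Ioc.image _ ?_
      refine (hd.mono hsub).continuousOn.comp (hg.cont.mono fun v hv => ?_) fun v hv => hdom v hv
      exact ⟨hs.trans hv.1.le, hv.2.trans_lt hsT⟩
    have hAsub : (fun r => ψ (η r)) '' Ioc s s' ⊆ ψ '' loewnerDomain W (c s) ∩ ball p a := by
      rintro _ ⟨v, hv, rfl⟩
      exact ⟨mem_image_of_mem _ (hdom v hv), hA v hv⟩
    have h := hC.small_image_area (p := p) (q := 0) ha hab (N := N) ?_ hApre hAsub
      (mem_image_of_mem _ hr) (mem_image_of_mem _ hr')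
    · rw [OBSV.inv_f hi' (hdom r hr), OBSV.inv_f hi' (hdom r' hr')] at h
      exact (sq_le_sq₀ (norm_nonneg _) hl.le).1 (h.trans hlog)
    · rintro _ ⟨⟨z, hz, rfl⟩, hzb⟩
      rw [OBSV.inv_f hi' hz, mem_closedBall, dist_zero_right]
      exact hN z hz hzb
  -- the shifted chain
  have hV : Continuous fun u => W (c s + u) - W (c s) := by fun_prop
  have hV0 : (fun u => W (c s + u) - W (c s)) 0 = 0 := by simp
  have hhull : ∀ z : ℂ, 0 < z.im → l < ‖z‖ →
      z ∈ loewnerDomain (fun u => W (c s + u) - W (c s)) (c s' - c s) := by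
    intro w hw hwl
    by_contra hdead
    obtain ⟨z, hz, hzw⟩ := Zf_surj hW hc0 hw
    have hz' : z ∉ loewnerDomain W (c s') := by
      intro h
      rw [dom_shift hc0 hcc.le hz, hzw] at h
      exact hdead h
    rw [hg.dom s' hsI'] at hz'
    have hzr : ∃ r ∈ Ioc s s', η r = z := by
      by_contra hcon
      apply hz'
      refine ⟨im_pos_of_dom hc0 hz, ?_⟩
      rintro ⟨v, hv, hv'⟩
      have hvs : s < v := by
        by_contra hle
        rw [hg.dom s hsI] at hz
        exact hz.2 ⟨v, ⟨hv.1, not_lt.1 hle⟩, hv'⟩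
      exact hcon ⟨v, ⟨hvs, hv.2⟩, hv'⟩
    obtain ⟨r, hr, rfl⟩ := hzr
    -- points of the curve close to the driver
    have hclose : ∀ ε > 0, ∃ r' ∈ Ioc s s', ‖Zf W (η r') (c s)‖ < ε := by
      intro ε hε
      obtain ⟨δ, hδ, hcW⟩ := Metric.continuousAt_iff.1 (hW.continuousAt (x := c s)) (ε / 8)
        (by positivity)
      have hcs : ContinuousWithinAt c (Ico 0 T₁) s := hg.contc s hsI
      obtain ⟨δ', hδ', hcc'⟩ := Metric.continuousWithinAt_iff.1 hcs (min (δ / 2) (ε ^ 2 / 64))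
        (lt_min (by positivity) (by positivity))
      obtain ⟨r', hr'⟩ : ∃ r', r' = min s' (s + δ' / 2) := ⟨_, rfl⟩
      have hr's : s < r' := by rw [hr']; exact lt_min hss (by linarith)
      have hr's' : r' ≤ s' := by rw [hr']; exact min_le_left _ _
      have hr'I : r' ∈ Ico 0 T₁ := ⟨hs.trans hr's.le, hr's'.trans_lt hsT⟩
      have hd1 : dist (c r') (c s) < min (δ / 2) (ε ^ 2 / 64) := by
        refine hcc' hr'I ?_
        rw [Real.dist_eq, abs_of_pos (by linarith)]
        have : r' ≤ s + δ' / 2 := by rw [hr']; exact min_le_right _ _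
        linarith
      have hcr : c s < c r' := hg.mono hsI hr'I hr's
      rw [Real.dist_eq, abs_of_pos (by linarith)] at hd1
      have hd2 := hd1.trans_le (min_le_left _ _)
      have hd3 := hd1.trans_le (min_le_right _ _)
      refine ⟨r', ⟨hr's, hr's'⟩, near_dying hW hε hc0 hcr.le (hdom r' ⟨hr's, hr's'⟩) ?_ hd3.le ?_⟩
      · rw [hg.dom r' hr'I]
        exact fun h => h.2 ⟨r', ⟨hs.trans hr's.le, le_rfl⟩, rfl⟩
      · intro u hu
        have : dist u (c s) < δ := by
          rw [Real.dist_eq, abs_of_nonneg (by linarith [hu.1])]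
          linarith [hu.2]
        have := hcW this
        rw [Real.dist_eq] at this
        exact this.le
    have hle : ‖w‖ ≤ l := by
      refine le_of_forall_pos_le_add fun ε hε => ?_
      obtain ⟨r', hr', hr''⟩ := hclose ε hε
      have h1 := hkey r hr r' hr'
      have h2 : w = (gf W (η r) (c s) - gf W (η r') (c s)) + Zf W (η r') (c s) := by
        rw [← hzw, Zf_eq, Zf_eq]; ring
      rw [h2]
      exact (norm_add_le _ _).trans (by linarith)
    exact absurd hwl (not_lt.2 hle)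
  obtain ⟨h1, h2⟩ := osc_of_hull hV hV0 (sub_nonneg.2 hcc.le) hl hhull
  refine ⟨h1, fun u hu => ?_⟩
  have := h2 (u - c s) ⟨by linarith [hu.1], by linarith [hu.2]⟩
  rwa [show c s + (u - c s) = u by ring] at this

end Vale.Agent.P153.R2.STEP
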